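import Mathlib

open Finset

namespace Vale.Agent.HDX

variable {α : Type*} [DecidableEq α]

/-- Finite chains with coefficients modulo two, in the augmented sense. -/
abbrev Ch (α : Type*) := Finset α →₀ ZMod 2

/-- The augmented boundary. -/
noncomputable def bd : Ch α →ₗ[ZMod 2] Ch α :=
  Finsupp.linearCombination (ZMod 2) fun σ => ∑ x ∈ σ, Finsupp.single (σ.erase x) 1

/-- The cone with apex `x`. -/
noncomputable def cone (x : α) : Ch α →ₗ[ZMod 2] Ch α :=
  Finsupp.linearCombination (ZMod 2) fun σ =>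
    if x ∈ σ then 0 else Finsupp.single (insert x σ) 1

/-- The link part at `x`. -/
noncomputable def lk (x : α) : Ch α →ₗ[ZMod 2] Ch α :=
  Finsupp.linearCombination (ZMod 2) fun σ =>
    if x ∈ σ then Finsupp.single (σ.erase x) 1 else 0

lemma bd_single (σ : Finset α) :
    bd (Finsupp.single σ 1) = ∑ x ∈ σ, Finsupp.single (σ.erase x) 1 := by
  simp [bd]

lemma cone_single (x : α) (σ : Finset α) :
    cone x (Finsupp.single σ 1) = if x ∈ σ then 0 else Finsupp.single (insert x σ) 1 := by
  simp [cone]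

lemma lk_single (x : α) (σ : Finset α) :
    lk x (Finsupp.single σ 1) = if x ∈ σ then Finsupp.single (σ.erase x) 1 else 0 := by
  simp [lk]

lemma ch_ext {M : Type*} [AddCommGroup M] [Module (ZMod 2) M] {f g : Ch α →ₗ[ZMod 2] M}
    (h : ∀ σ, f (Finsupp.single σ 1) = g (Finsupp.single σ 1)) : f = g := by
  refine Finsupp.lhom_ext fun σ c => ?_
  have : Finsupp.single σ c = c • (Finsupp.single σ 1 : Ch α) := by simp
  rw [this, map_smul, map_smul, h]

lemma bd_bd (z : Ch α) : bd (bd z) = 0 := by
  suffices h : (bd.comp bd : Ch α →ₗ[ZMod 2] Ch α) = 0 from LinearMap.congr_fun h z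
  refine ch_ext fun σ => ?_
  simp only [LinearMap.comp_apply, LinearMap.zero_apply, bd_single, map_sum]
  rw [Finset.sum_sigma']
  refine Finset.sum_involution (fun w _ => ⟨w.2, w.1⟩) ?_ ?_ ?_ ?_
  · rintro ⟨x, y⟩ _
    rw [Finset.erase_right_comm]
    exact ZModModule.add_self _
  · rintro ⟨x, y⟩ h _ he
    simp only [Finset.mem_sigma, Finset.mem_erase] at h
    simp only [Sigma.mk.injEq, heq_eq_eq] at he
    exact h.2.1 he.1
  · rintro ⟨x, y⟩ h
    simp only [Finset.mem_sigma, Finset.mem_erase] at h ⊢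
    exact ⟨h.2.2, h.2.1.symm, h.1⟩
  · rintro ⟨x, y⟩ _
    rfl

lemma bd_cone (x : α) (z : Ch α) : bd (cone x z) + cone x (bd z) = z := by
  suffices h : (bd.comp (cone x) + (cone x).comp bd : Ch α →ₗ[ZMod 2] Ch α) = LinearMap.id from
    LinearMap.congr_fun h z
  refine ch_ext fun σ => ?_
  simp only [LinearMap.add_apply, LinearMap.comp_apply, LinearMap.id_apply, bd_single, map_sum,
    cone_single]
  by_cases hx : x ∈ σ
  · rw [if_pos hx, map_zero, zero_add, Finset.sum_eq_single_of_mem x hx]
    · simp [Finset.insert_erase hx]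
    · intro y _ hy
      simp [Finset.mem_erase, hx, hy.symm]
  · rw [if_neg hx, bd_single, Finset.sum_insert hx, Finset.erase_insert hx, add_assoc]
    have h : ∀ y ∈ σ, (if x ∈ σ.erase y then 0 else
        Finsupp.single (insert x (σ.erase y)) (1 : ZMod 2))
        = Finsupp.single ((insert x σ).erase y) 1 := by
      intro y hy
      have hxy : x ≠ y := fun h => hx (h ▸ hy)
      rw [if_neg (fun h => hx (Finset.mem_of_mem_erase h)), Finset.erase_insert_of_ne hxy]
    rw [Finset.sum_congr rfl h, ZModModule.add_self, add_zero]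

lemma bd_lk (x : α) (z : Ch α) : bd (lk x z) = lk x (bd z) := by
  suffices h : (bd.comp (lk x) : Ch α →ₗ[ZMod 2] Ch α) = (lk x).comp bd from
    LinearMap.congr_fun h z
  refine ch_ext fun σ => ?_
  simp only [LinearMap.comp_apply, bd_single, map_sum, lk_single]
  by_cases hx : x ∈ σ
  · rw [if_pos hx, bd_single, ← Finset.sum_erase (a := x) σ (by simp)]
    refine Finset.sum_congr rfl fun y hy => ?_
    rw [if_pos (Finset.mem_erase.mpr ⟨(Finset.ne_of_mem_erase hy).symm, hx⟩),
      Finset.erase_right_comm]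
  · rw [if_neg hx, map_zero]
    exact (Finset.sum_eq_zero fun y _ => if_neg fun h => hx (Finset.mem_of_mem_erase h)).symm

/-- All simplices of the chain satisfy `p`. -/
def Supp (p : Finset α → Prop) (z : Ch α) : Prop := ∀ σ ∈ z.support, p σ

lemma Supp.zero {p : Finset α → Prop} : Supp p (0 : Ch α) := by simp [Supp]

lemma Supp.single {p : Finset α → Prop} {σ : Finset α} (h : p σ) (c : ZMod 2) :
    Supp p (Finsupp.single σ c) := by
  intro τ hτ
  rw [Finset.mem_singleton.mp (Finsupp.support_single_subset hτ)]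
  exact h

lemma Supp.add {p : Finset α → Prop} {z w : Ch α} (hz : Supp p z) (hw : Supp p w) :
    Supp p (z + w) := by
  intro σ hσ
  rcases Finset.mem_union.mp (Finsupp.support_add hσ) with h | h
  · exact hz σ h
  · exact hw σ h

lemma Supp.smul {p : Finset α → Prop} {z : Ch α} (hz : Supp p z) (c : ZMod 2) :
    Supp p (c • z) := fun σ hσ => hz σ (Finsupp.support_smul hσ)

lemma Supp.sum {p : Finset α → Prop} {ι : Type*} {s : Finset ι} {z : ι → Ch α}
    (hz : ∀ i ∈ s, Supp p (z i)) : Supp p (∑ i ∈ s, z i) :=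
  Finset.sum_induction z (Supp p) (fun _ _ => Supp.add) Supp.zero hz

lemma Supp.mono {p q : Finset α → Prop} {z : Ch α} (hz : Supp p z) (h : ∀ σ, p σ → q σ) :
    Supp q z := fun σ hσ => h σ (hz σ hσ)

lemma Supp.linearCombination {β : Type*} [DecidableEq β] {p : Finset α → Prop}
    {q : Finset β → Prop} {f : Finset α → Ch β} {z : Ch α} (hz : Supp p z)
    (hf : ∀ σ, p σ → Supp q (f σ)) :
    Supp q (Finsupp.linearCombination (ZMod 2) f z) := by
  rw [Finsupp.linearCombination_apply]
  exact Supp.sum fun σ hσ => (hf σ (hz σ hσ)).smul _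

end Vale.Agent.HDX
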