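import Vale.Agent.HDX.Ranks

open Finset

namespace Vale.Agent.HDX

/-- The union of a family of sets. -/
def top (σ : Finset (Finset ℕ)) : Finset ℕ := σ.sup id

lemma subset_top {σ : Finset (Finset ℕ)} {S : Finset ℕ} (h : S ∈ σ) : S ⊆ top σ :=
  Finset.le_sup (f := id) h

lemma top_subset {σ : Finset (Finset ℕ)} {U : Finset ℕ} (h : ∀ S ∈ σ, S ⊆ U) : top σ ⊆ U :=
  Finset.sup_le h

lemma top_mono {σ τ : Finset (Finset ℕ)} (h : σ ⊆ τ) : top σ ⊆ top τ := Finset.sup_mono h

lemma Simp.subset {U B : Finset ℕ} {a b j : ℕ} {σ ρ : Finset (Finset ℕ)}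
    (h : Simp U B a b j σ) (hρ : ρ ⊆ σ) : Simp U B a b ρ.card ρ :=
  ⟨rfl, fun S hS => h.2.1 S (hρ hS), fun S hS T hT => h.2.2 S (hρ hS) T (hρ hT)⟩

lemma Simp.mono {U U' B : Finset ℕ} {a b j : ℕ} {σ : Finset (Finset ℕ)}
    (h : Simp U B a b j σ) (hU : U ⊆ U') : Simp U' B a b j σ :=
  ⟨h.1, fun S hS => ⟨(h.2.1 S hS).1, (h.2.1 S hS).2.1.trans hU, (h.2.1 S hS).2.2⟩, h.2.2⟩

/-- The size of a member determines it. -/
lemma Simp.card_injOn {U B : Finset ℕ} {a b j : ℕ} {σ : Finset (Finset ℕ)}
    (h : Simp U B a b j σ) : Set.InjOn Finset.card (σ : Set (Finset ℕ)) := by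
  intro S hS T hT he
  rcases h.2.2 S hS T hT with h1 | h1
  · exact Finset.eq_of_subset_of_card_le h1 he.ge
  · exact (Finset.eq_of_subset_of_card_le h1 he.le).symm

lemma Simp.card_top_le {U B : Finset ℕ} {a b j : ℕ} {σ : Finset (Finset ℕ)}
    (h : Simp U B a b j σ) : (top σ).card ≤ b := by
  rcases σ.eq_empty_or_nonempty with rfl | hne
  · simp [top]
  · obtain ⟨S, hS, hmax⟩ := Finset.exists_max_image σ Finset.card hne
    refine le_trans (Finset.card_le_card (top_subset fun T hT => ?_)) (h.2.1 S hS).2.2.2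
    rcases h.2.2 T hT S hS with h1 | h1
    · exact h1
    · exact (Finset.eq_of_subset_of_card_le h1 (hmax T hT)).ge

lemma Simp.extend {U : Finset ℕ} {a b j : ℕ} {σ : Finset (Finset ℕ)}
    (h : Simp U ∅ a b j σ) (hj : j < b + 1 - a) (hb : b ≤ U.card) :
    ∃ X, X ∉ σ ∧ Simp U ∅ a b (j + 1) (insert X σ) := by
  obtain ⟨s, hs, hsσ⟩ : ∃ s ∈ Finset.Icc a b, s ∉ σ.image Finset.card := by
    refine Finset.exists_mem_notMem_of_card_lt_card ?_
    rw [Finset.card_image_of_injOn h.card_injOn, h.1, Nat.card_Icc]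
    exact hj
  rw [Finset.mem_Icc] at hs
  have hne : ∀ S ∈ σ, S.card ≠ s := fun S hS he =>
    hsσ (Finset.mem_image.mpr ⟨S, hS, he⟩)
  set lo := σ.filter fun S => S.card < s with hlo
  set hi := σ.filter fun S => s < S.card with hhi
  obtain ⟨H, hHU, hLH, hsH, hHhi⟩ : ∃ H, H ⊆ U ∧ (∀ S ∈ lo, S ⊆ H) ∧ s ≤ H.card ∧
      ∀ S ∈ hi, H ⊆ S := by
    rcases hi.eq_empty_or_nonempty with he | hne'
    · exact ⟨U, subset_rfl, fun S hS => (h.2.1 S (Finset.mem_filter.mp hS).1).2.1,
        by omega, by simp [he]⟩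
    · obtain ⟨H, hH, hmin⟩ := Finset.exists_min_image hi Finset.card hne'
      obtain ⟨hHσ, hHs⟩ := Finset.mem_filter.mp hH
      refine ⟨H, (h.2.1 H hHσ).2.1, fun S hS => ?_, hHs.le, fun S hS => ?_⟩
      · obtain ⟨hSσ, hSs⟩ := Finset.mem_filter.mp hS
        rcases h.2.2 S hSσ H hHσ with h1 | h1
        · exact h1
        · have := Finset.card_le_card h1; omega
      · rcases h.2.2 H hHσ S (Finset.mem_filter.mp hS).1 with h1 | h1
        · exact h1
        · exact (Finset.eq_of_subset_of_card_le h1 (hmin S hS)).ge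
  have hL : (top lo).card ≤ s := by
    have h1 := (h.subset (Finset.filter_subset (fun S => S.card < s) σ))
    rcases lo.eq_empty_or_nonempty with he | hne'
    · simp [he, top]
    · obtain ⟨S, hS, hmax⟩ := Finset.exists_max_image lo Finset.card hne'
      refine le_trans (Finset.card_le_card (top_subset fun T hT => ?_))
        (Finset.mem_filter.mp hS).2.le
      rcases h1.2.2 T hT S hS with h2 | h2
      · exact h2
      · exact (Finset.eq_of_subset_of_card_le h2 (hmax T hT)).ge
  obtain ⟨X, hLX, hXH, hX⟩ :=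
    Finset.exists_subsuperset_card_eq (top_subset hLH) hL hsH
  have hXσ : X ∉ σ := fun hX' => hne X hX' hX
  have hcomp : ∀ S ∈ σ, S ⊆ X ∨ X ⊆ S := by
    intro S hS
    rcases lt_or_gt_of_ne (hne S hS) with h1 | h1
    · exact Or.inl ((subset_top (Finset.mem_filter.mpr ⟨hS, h1⟩)).trans hLX)
    · exact Or.inr (hXH.trans (hHhi S (Finset.mem_filter.mpr ⟨hS, h1⟩)))
  refine ⟨X, hXσ, ?_⟩
  have h1 := h.cone (X := X) ⟨Finset.empty_subset _, hXH.trans hHU, by omega, by omega⟩ hcomp
  rw [cone_single, if_neg hXσ] at h1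
  exact h1 _ (by simp)

lemma Simp.complete {U : Finset ℕ} {a b j : ℕ} {σ : Finset (Finset ℕ)}
    (h : Simp U ∅ a b j σ) (hj : j ≤ b + 1 - a) (hb : b ≤ U.card) :
    ∃ τ, σ ⊆ τ ∧ Simp U ∅ a b (b + 1 - a) τ := by
  obtain ⟨e, he⟩ : ∃ e, b + 1 - a = j + e := ⟨b + 1 - a - j, by omega⟩
  induction e generalizing j σ with
  | zero => exact ⟨σ, subset_rfl, by rwa [he, add_zero]⟩
  | succ e ih =>
    obtain ⟨X, -, h'⟩ := h.extend (by omega) hb
    obtain ⟨τ, hτ, hτ'⟩ := ih h' (by omega) (by omega)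
    exact ⟨τ, (Finset.subset_insert X σ).trans hτ, hτ'⟩

/-- The top of a complete chain has the largest size. -/
lemma Simp.card_top {U B : Finset ℕ} {a b : ℕ} {τ : Finset (Finset ℕ)}
    (h : Simp U B a b (b + 1 - a) τ) (hab : a ≤ b) : (top τ).card = b := by
  refine le_antisymm h.card_top_le ?_
  have himg : τ.image Finset.card = Finset.Icc a b := by
    refine Finset.eq_of_subset_of_card_le ?_ ?_
    · intro s hs
      obtain ⟨S, hS, rfl⟩ := Finset.mem_image.mp hs
      exact Finset.mem_Icc.mpr (h.2.1 S hS).2.2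
    · rw [Finset.card_image_of_injOn h.card_injOn, h.1, Nat.card_Icc]
  obtain ⟨S, hS, hSb⟩ := Finset.mem_image.mp
    (himg.symm ▸ Finset.mem_Icc.mpr ⟨hab, le_rfl⟩ : b ∈ τ.image Finset.card)
  exact hSb ▸ Finset.card_le_card (subset_top hS)

/-- Top faces: full chains of subsets of `{0, …, N-1}` with sizes `k, …, k + d`. -/
def chainComplex (N k d : ℕ) : Finset (Finset (Finset ℕ)) :=
  (((Finset.range N).powerset.filter fun S => k ≤ S.card ∧ S.card ≤ k + d).powersetCard
    (d + 1)).filter fun τ => ∀ S ∈ τ, ∀ T ∈ τ, S ⊆ T ∨ T ⊆ S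

lemma mem_chainComplex {N k d : ℕ} {τ : Finset (Finset ℕ)} :
    τ ∈ chainComplex N k d ↔ Simp (Finset.range N) ∅ k (k + d) (d + 1) τ := by
  rw [chainComplex, Finset.mem_filter, Finset.mem_powersetCard]
  constructor
  · rintro ⟨⟨h1, h2⟩, h3⟩
    refine ⟨h2, fun S hS => ?_, h3⟩
    obtain ⟨h4, h5⟩ := Finset.mem_filter.mp (h1 hS)
    exact ⟨Finset.empty_subset _, Finset.mem_powerset.mp h4, h5⟩
  · rintro ⟨h1, h2, h3⟩
    exact ⟨⟨fun S hS => Finset.mem_filter.mpr ⟨Finset.mem_powerset.mpr (h2 S hS).2.1,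
      (h2 S hS).2.2⟩, h1⟩, h3⟩

lemma exists_face_with_top {N k d : ℕ} {σ : Finset (Finset ℕ)} {T : Finset ℕ} {j : ℕ}
    (h : Simp (Finset.range N) ∅ k (k + d) j σ) (hj : j ≤ d + 1) (hT : T.card = k + d)
    (hTN : T ⊆ Finset.range N) (hσT : top σ ⊆ T) :
    ∃ τ ∈ chainComplex N k d, σ ⊆ τ ∧ top τ = T := by
  have h' : Simp T ∅ k (k + d) j σ :=
    ⟨h.1, fun S hS => ⟨(h.2.1 S hS).1, (subset_top hS).trans hσT, (h.2.1 S hS).2.2⟩, h.2.2⟩
  obtain ⟨τ, hτ, hτ'⟩ := h'.complete (by omega) hT.ge
  refine ⟨τ, mem_chainComplex.mpr ?_, hτ, ?_⟩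
  · rw [show d + 1 = k + d + 1 - k by omega]
    exact hτ'.mono hTN
  · exact Finset.eq_of_subset_of_card_le (top_subset fun S hS => (hτ'.2.1 S hS).2.1)
      (by rw [hτ'.card_top (by omega), hT])

/-- The sets of size `m` containing `A`, inside `{0, …, N-1}`. -/
def supers (N m : ℕ) (A : Finset ℕ) : Finset (Finset ℕ) :=
  ((Finset.range N).powersetCard m).filter fun T => A ⊆ T

lemma card_supers {N m : ℕ} {A : Finset ℕ} (hA : A ⊆ Finset.range N) (hm : A.card ≤ m) :
    (supers N m A).card = (N - A.card).choose (m - A.card) := by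
  have h : ((Finset.range N \ A).powersetCard (m - A.card)).card = (supers N m A).card := by
    refine Finset.card_bij (fun T _ => T ∪ A) ?_ ?_ ?_
    · intro T hT
      obtain ⟨hTs, hTc⟩ := Finset.mem_powersetCard.mp hT
      obtain ⟨hTN, hdis⟩ := Finset.subset_sdiff.mp hTs
      refine Finset.mem_filter.mpr ⟨Finset.mem_powersetCard.mpr
        ⟨Finset.union_subset hTN hA, ?_⟩, Finset.subset_union_right⟩
      rw [Finset.card_union_of_disjoint hdis]; omega
    · intro T hT T' hT' he
      have h1 := (Finset.subset_sdiff.mp (Finset.mem_powersetCard.mp hT).1).2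
      have h2 := (Finset.subset_sdiff.mp (Finset.mem_powersetCard.mp hT').1).2
      simpa [Finset.union_sdiff_cancel_right h1, Finset.union_sdiff_cancel_right h2] using
        congrArg (fun X => X \ A) he
    · intro T hT
      obtain ⟨hT1, hAT⟩ := Finset.mem_filter.mp hT
      obtain ⟨hTN, hTc⟩ := Finset.mem_powersetCard.mp hT1
      refine ⟨T \ A, Finset.mem_powersetCard.mpr ⟨Finset.sdiff_subset_sdiff hTN subset_rfl, ?_⟩,
        Finset.sdiff_union_of_subset hAT⟩
      rw [Finset.card_sdiff_of_subset hAT, hTc]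
  rw [← h, Finset.card_powersetCard, Finset.card_sdiff_of_subset hA, Finset.card_range]

/-- Faces containing a given chain are at least as many as the possible tops. -/
lemma supers_le_faces {N k d j : ℕ} {σ : Finset (Finset ℕ)}
    (h : Simp (Finset.range N) ∅ k (k + d) j σ) (hj : j ≤ d + 1) :
    (supers N (k + d) (top σ)).card ≤
      ((chainComplex N k d).filter fun τ => σ ⊆ τ).card := by
  refine Finset.card_le_card_of_surjOn top ?_
  intro T hT
  rw [Finset.mem_coe, supers, Finset.mem_filter, Finset.mem_powersetCard] at hT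
  obtain ⟨τ, hτ, hστ, htop⟩ := exists_face_with_top h hj hT.1.2 hT.1.1 hT.2
  exact ⟨τ, Finset.mem_coe.mpr (Finset.mem_filter.mpr ⟨hτ, hστ⟩), htop⟩

/-- A bound for the number of chains inside one set of size `k + d`. -/
def chainBound (k d : ℕ) : ℕ := 2 ^ 2 ^ (k + d)

/-- Only boundedly many faces have tops in a given family. -/
lemma faces_le_supers {N k d : ℕ} (P : Finset ℕ → Prop) [DecidablePred P] :
    ((chainComplex N k d).filter fun τ => P (top τ)).card ≤
      chainBound k d * (((Finset.range N).powersetCard (k + d)).filter P).card := by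
  refine Finset.card_le_mul_card_image_of_maps_to (f := top) ?_ _ ?_
  · intro τ hτ
    obtain ⟨hτ1, hτ2⟩ := Finset.mem_filter.mp hτ
    have h := mem_chainComplex.mp hτ1
    refine Finset.mem_filter.mpr ⟨Finset.mem_powersetCard.mpr
      ⟨top_subset fun S hS => (h.2.1 S hS).2.1, ?_⟩, hτ2⟩
    rw [show d + 1 = k + d + 1 - k by omega] at h
    exact h.card_top (by omega)
  · intro T hT
    have hTc := (Finset.mem_powersetCard.mp (Finset.mem_filter.mp hT).1).2
    refine (Finset.card_le_card (t := T.powerset.powerset) fun τ hτ => ?_).trans_eq ?_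
    · obtain ⟨-, rfl⟩ := Finset.mem_filter.mp hτ
      exact Finset.mem_powerset.mpr fun S hS => Finset.mem_powerset.mpr (subset_top hS)
    · rw [Finset.card_powerset, Finset.card_powerset, hTc, chainBound]

lemma choose_mul_choose_le {N m a b : ℕ} (ha : a ≤ m) (hb : b ≤ m) (hab : a + b ≤ m)
    (hm : m ≤ N) :
    (N - a).choose (m - a) * (N - b).choose (m - b) ≤
      4 ^ m * (N.choose m * (N - (a + b)).choose (m - (a + b))) := by
  have h0 : 0 < N.choose (a + b) := Nat.choose_pos (by omega)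
  refine Nat.le_of_mul_le_mul_right ?_ h0
  have e1 := Nat.choose_mul (n := N) (k := m) (s := a) ha
  have e2 := Nat.choose_mul (n := N) (k := m) (s := b) hb
  have e3 := Nat.choose_mul (n := N) (k := m) (s := a + b) hab
  have e4 := Nat.choose_mul (n := N) (k := a + b) (s := a) (by omega)
  rw [show a + b - a = b by omega] at e4
  have h1 : N.choose (a + b) ≤ N.choose a * N.choose b := by
    calc N.choose (a + b) ≤ N.choose (a + b) * (a + b).choose a :=
          Nat.le_mul_of_pos_right _ (Nat.choose_pos (by omega))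
      _ = N.choose a * (N - a).choose b := e4
      _ ≤ _ := Nat.mul_le_mul_left _ (Nat.choose_le_choose b (by omega))
  calc (N - a).choose (m - a) * (N - b).choose (m - b) * N.choose (a + b)
      ≤ (N - a).choose (m - a) * (N - b).choose (m - b) * (N.choose a * N.choose b) :=
        Nat.mul_le_mul_left _ h1
    _ = (N.choose a * (N - a).choose (m - a)) * (N.choose b * (N - b).choose (m - b)) := by ring
    _ = N.choose m * (N.choose m * (m.choose a * m.choose b)) := by rw [← e1, ← e2]; ring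
    _ ≤ N.choose m * (N.choose m * (2 ^ m * 2 ^ m * m.choose (a + b))) := by
        refine Nat.mul_le_mul_left _ (Nat.mul_le_mul_left _ ?_)
        calc m.choose a * m.choose b ≤ 2 ^ m * 2 ^ m :=
              Nat.mul_le_mul (Nat.choose_le_two_pow _ _) (Nat.choose_le_two_pow _ _)
          _ ≤ _ := Nat.le_mul_of_pos_right _ (Nat.choose_pos hab)
    _ = 4 ^ m * N.choose m * (N.choose m * m.choose (a + b)) := by
        rw [show (4 : ℕ) ^ m = 2 ^ m * 2 ^ m by rw [← mul_pow]; norm_num]; ring
    _ = _ := by rw [e3]; ring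

/-- Pairs of tops covering a given set. -/
lemma pairs_le {N m : ℕ} {R : Finset ℕ} (hR : R ⊆ Finset.range N) (hRm : R.card ≤ m)
    (hm : m ≤ N) :
    ∑ v ∈ (Finset.range N).powersetCard m,
        (((Finset.range N).powersetCard m).filter fun T => R ⊆ T ∪ v).card ≤
      2 ^ m * (4 ^ m * (N.choose m * (supers N m R).card)) := by
  classical
  have h1 : ∀ v ∈ (Finset.range N).powersetCard m,
      (((Finset.range N).powersetCard m).filter fun T => R ⊆ T ∪ v).card =
        ∑ A ∈ R.powerset, if R ∩ v = A then (supers N m (R \ A)).card else 0 := by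
    intro v _
    rw [Finset.sum_eq_single_of_mem (R ∩ v) (Finset.mem_powerset.mpr Finset.inter_subset_left)
      (fun A _ hA => if_neg hA.symm), if_pos rfl, supers]
    refine congrArg Finset.card (Finset.filter_congr fun T _ => ?_)
    simp only [Finset.subset_iff, Finset.mem_sdiff, Finset.mem_inter, Finset.mem_union]
    exact ⟨fun h x hx => (h hx.1).resolve_right fun hv => hx.2 ⟨hx.1, hv⟩,
      fun h x hx => (em (x ∈ v)).elim Or.inr fun hv => Or.inl (h ⟨hx, fun hh => hv hh.2⟩)⟩
  rw [Finset.sum_congr rfl h1, Finset.sum_comm]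
  refine (Finset.sum_le_card_nsmul _ _ (4 ^ m * (N.choose m * (supers N m R).card))
    fun A hA => ?_).trans ?_
  · have hAR := Finset.mem_powerset.mp hA
    have hcA := Finset.card_le_card hAR
    rw [← Finset.sum_filter, Finset.sum_const, smul_eq_mul]
    refine le_trans (Nat.mul_le_mul_right _ (Finset.card_le_card (t := supers N m A) ?_)) ?_
    · intro v hv
      obtain ⟨hv1, hv2⟩ := Finset.mem_filter.mp hv
      exact Finset.mem_filter.mpr ⟨hv1, hv2 ▸ Finset.inter_subset_right⟩
    · have hc : (R \ A).card = R.card - A.card := Finset.card_sdiff_of_subset hAR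
      have hRA : A.card + (R.card - A.card) = R.card := by omega
      have h := choose_mul_choose_le (N := N) (m := m) (a := A.card) (b := R.card - A.card)
        (by omega) (by omega) (by omega) hm
      rw [hRA] at h
      rw [card_supers (hAR.trans hR) (by omega),
        card_supers (Finset.sdiff_subset.trans hR) (by omega), card_supers hR hRm, hc]
      exact h
  · rw [Finset.card_powerset, smul_eq_mul]
    exact Nat.mul_le_mul_right _ (Nat.pow_le_pow_right (by norm_num) hRm)

end Vale.Agent.HDX
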