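import Mathlib

open Finset

namespace Vale.Agent.HDX

variable {α : Type*} [DecidableEq α]

/-- The vertices of the complex whose top faces form `F`. -/
def vertices (F : Finset (Finset α)) : Finset α := F.biUnion id

/-- The faces with `j` vertices of the complex whose top faces form `F`. -/
def faces (F : Finset (Finset α)) (j : ℕ) : Finset (Finset α) :=
  F.biUnion fun τ => τ.powersetCard j

/-- The probability weight of a face in a pure `d`-dimensional complex. -/
noncomputable def faceWeight (d : ℕ) (F : Finset (Finset α)) (σ : Finset α) : ℝ :=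
  ((F.filter fun τ => σ ⊆ τ).card : ℝ) / ((((d + 1).choose σ.card : ℕ) : ℝ) * (F.card : ℝ))

/-- The weighted size of a cochain on faces with `j` vertices. -/
noncomputable def coNorm (d : ℕ) (F : Finset (Finset α)) (j : ℕ) (f : Finset α → ZMod 2) : ℝ :=
  ∑ σ ∈ (faces F j).filter (fun σ => f σ ≠ 0), faceWeight d F σ

/-- The coboundary of a cochain on sets of `j` vertices, evaluated on larger sets. -/
def cobd (j : ℕ) (f : Finset α → ZMod 2) (τ : Finset α) : ZMod 2 :=
  ∑ σ ∈ τ.powersetCard j, f σ

/-- Coboundary expansion with constant `ε` in all degrees below `d`. For `i = 0` the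
coboundaries `cobd 0 g` are the constant functions. -/
def IsCoboundaryExpander (d : ℕ) (ε : ℝ) (F : Finset (Finset α)) : Prop :=
  ∀ i < d, ∀ f : Finset α → ZMod 2, ∃ g : Finset α → ZMod 2,
    ε * coNorm d F (i + 1) (fun σ => f σ - cobd i g σ) ≤ coNorm d F (i + 2) (cobd (i + 1) f)

/-- Two vertices lie in a common face. -/
def Adj (F : Finset (Finset α)) (a b : α) : Prop := ∃ τ ∈ F, a ∈ τ ∧ b ∈ τ

/-- The complex is connected. -/
def IsConnectedComplex (F : Finset (Finset α)) : Prop :=
  ∀ a ∈ vertices F, ∀ b ∈ vertices F, Relation.ReflTransGen (Adj F) a b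

end Vale.Agent.HDX
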