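import Vale.Agent.HDX.Defs
import Vale.Agent.HDX.Chain

open Finset

namespace Vale.Agent.HDX

variable {α : Type*} [DecidableEq α]

lemma mem_faces {F : Finset (Finset α)} {j : ℕ} {σ : Finset α} :
    σ ∈ faces F j ↔ (∃ τ ∈ F, σ ⊆ τ) ∧ σ.card = j := by
  simp only [faces, Finset.mem_biUnion, Finset.mem_powersetCard]
  constructor
  · rintro ⟨τ, hτ, h1, h2⟩; exact ⟨⟨τ, hτ, h1⟩, h2⟩
  · rintro ⟨⟨τ, hτ, h1⟩, h2⟩; exact ⟨τ, hτ, h1, h2⟩

lemma powersetCard_eq_image_erase (σ : Finset α) {i : ℕ} (h : σ.card = i + 1) :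
    σ.powersetCard i = σ.image σ.erase := by
  ext ρ
  simp only [Finset.mem_powersetCard, Finset.mem_image]
  constructor
  · rintro ⟨hs, hc⟩
    obtain ⟨x, hx⟩ : ∃ x, σ \ ρ = {x} := Finset.card_eq_one.mp (by
      rw [Finset.card_sdiff_of_subset hs]; omega)
    have hxσ : x ∈ σ ∧ x ∉ ρ := by
      rw [← Finset.mem_sdiff, hx]; exact Finset.mem_singleton_self x
    refine ⟨x, hxσ.1, (Finset.eq_of_subset_of_card_le (Finset.subset_erase.mpr ⟨hs, hxσ.2⟩)
      ?_).symm⟩
    rw [Finset.card_erase_of_mem hxσ.1]; omega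
  · rintro ⟨x, hx, rfl⟩
    exact ⟨Finset.erase_subset _ _, by rw [Finset.card_erase_of_mem hx]; omega⟩

lemma cobd_eq_sum_erase (f : Finset α → ZMod 2) (σ : Finset α) {i : ℕ} (h : σ.card = i + 1) :
    cobd i f σ = ∑ x ∈ σ, f (σ.erase x) := by
  rw [cobd, powersetCard_eq_image_erase σ h, Finset.sum_image]
  exact fun x hx y _ he => (Finset.erase_inj σ hx).mp he

/-- A connected complex from expansion in degree zero. -/
lemma connected_of_expander {F : Finset (Finset α)} {d : ℕ} {ε : ℝ} (hd : 1 ≤ d) (hε : 0 < ε)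
    (h : IsCoboundaryExpander d ε F) : IsConnectedComplex F := by
  classical
  intro a ha b hb
  have hsymm : ∀ x y, Adj F x y → Adj F y x := fun x y ⟨τ, h1, h2, h3⟩ => ⟨τ, h1, h3, h2⟩
  set f : Finset α → ZMod 2 := fun σ =>
    if ∃ x, σ = {x} ∧ Relation.ReflTransGen (Adj F) a x then 1 else 0 with hf
  have hfx : ∀ x, f {x} = if Relation.ReflTransGen (Adj F) a x then 1 else 0 := by
    intro x
    simp only [hf, Finset.singleton_inj]
    simp
  have hδ : coNorm d F 2 (cobd 1 f) = 0 := by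
    refine Finset.sum_eq_zero fun σ hσ => ?_
    exfalso
    obtain ⟨hσ1, hσ2⟩ := Finset.mem_filter.mp hσ
    obtain ⟨⟨τ, hτ, hστ⟩, hcard⟩ := mem_faces.mp hσ1
    obtain ⟨x, y, hxy, rfl⟩ := Finset.card_eq_two.mp hcard
    have hx : x ∈ τ := hστ (by simp)
    have hy : y ∈ τ := hστ (by simp)
    refine hσ2 ?_
    rw [cobd_eq_sum_erase f _ (i := 1) hcard, Finset.sum_pair hxy]
    have h1 : ({x, y} : Finset α).erase x = {y} := by
      rw [Finset.erase_insert (by simp [hxy])]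
    have h2 : ({x, y} : Finset α).erase y = {x} := by
      rw [Finset.pair_comm, Finset.erase_insert (by simp [hxy.symm])]
    rw [h1, h2, hfx, hfx]
    have hiff : Relation.ReflTransGen (Adj F) a x ↔ Relation.ReflTransGen (Adj F) a y :=
      ⟨fun h => h.tail ⟨τ, hτ, hx, hy⟩, fun h => h.tail ⟨τ, hτ, hy, hx⟩⟩
    by_cases hr : Relation.ReflTransGen (Adj F) a x
    · rw [if_pos hr, if_pos (hiff.mp hr)]; exact ZModModule.add_self _
    · rw [if_neg hr, if_neg (fun h => hr (hiff.mpr h)), add_zero]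
  obtain ⟨g, hg⟩ := h 0 hd f
  rw [hδ] at hg
  have hnn : ∀ σ, 0 ≤ faceWeight d F σ := fun σ => by unfold faceWeight; positivity
  have hzero : coNorm d F 1 (fun σ => f σ - cobd 0 g σ) = 0 :=
    le_antisymm (nonpos_of_mul_nonpos_right hg hε) (Finset.sum_nonneg fun σ _ => hnn σ)
  have hconst : ∀ x ∈ vertices F, f {x} = g ∅ := by
    intro x hx
    obtain ⟨τ, hτ, hxτ⟩ := Finset.mem_biUnion.mp hx
    by_contra hne
    have hmem : ({x} : Finset α) ∈ (faces F 1).filter fun σ => f σ - cobd 0 g σ ≠ 0 := by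
      refine Finset.mem_filter.mpr ⟨mem_faces.mpr ⟨⟨τ, hτ, ?_⟩, by simp⟩, ?_⟩
      · simpa using hxτ
      · simpa [cobd, sub_eq_zero] using hne
    have hpos : 0 < faceWeight d F {x} := by
      unfold faceWeight
      have h1 : 0 < F.card := Finset.card_pos.mpr ⟨τ, hτ⟩
      have h2 : 0 < (F.filter fun ρ => ({x} : Finset α) ⊆ ρ).card :=
        Finset.card_pos.mpr ⟨τ, Finset.mem_filter.mpr ⟨hτ, by simpa using hxτ⟩⟩
      have h3 : 0 < (d + 1).choose ({x} : Finset α).card := by simp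
      positivity
    have := Finset.single_le_sum (fun σ _ => hnn σ) hmem
    unfold coNorm at hzero
    linarith
  by_contra hne
  have h1 := hconst a ha
  have h2 := hconst b hb
  rw [hfx, if_pos Relation.ReflTransGen.refl] at h1
  rw [hfx, if_neg hne, ← h1] at h2
  exact zero_ne_one h2

end Vale.Agent.HDX
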