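import Vale.Agent.HDX.Complex
import Vale.Agent.HDX.General

open Finset

namespace Vale.Agent.HDX

/-- The ground set available to the filling of `σ` from the apex `v`. -/
def ground (v : Finset ℕ) (σ : Finset (Finset ℕ)) : Finset ℕ := top σ ∪ v

/-- Bounded random cones: fillings of all low faces from any apex. -/
lemma exists_cones (N k d : ℕ) (v : Finset ℕ) (hvN : v ⊆ Finset.range N)
    (hv : v.card = k + d) :
    ∃ C : Finset (Finset ℕ) → Ch (Finset ℕ), ∀ σ, σ.card ≤ d →
      Simp (Finset.range N) ∅ k (k + d) σ.card σ →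
      Supp (Simp (ground v σ) ∅ k (k + d) (σ.card + 1)) (C σ) ∧
        bd (C σ) = (if σ = ∅ then 0 else Finsupp.single σ 1 + ∑ x ∈ σ, C (σ.erase x)) +
          (if σ = ∅ then Finsupp.single ∅ 1 else 0) := by
  classical
  suffices h : ∀ j, ∃ C : Finset (Finset ℕ) → Ch (Finset ℕ), ∀ σ, σ.card ≤ j → σ.card ≤ d →
      Simp (Finset.range N) ∅ k (k + d) σ.card σ →
      Supp (Simp (ground v σ) ∅ k (k + d) (σ.card + 1)) (C σ) ∧
        bd (C σ) = (if σ = ∅ then 0 else Finsupp.single σ 1 + ∑ x ∈ σ, C (σ.erase x)) +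
          (if σ = ∅ then Finsupp.single ∅ 1 else 0) by
    obtain ⟨C, hC⟩ := h d
    exact ⟨C, fun σ h1 => hC σ h1 h1⟩
  intro j
  induction j with
  | zero =>
    refine ⟨fun _ => Finsupp.single {v} 1, fun σ hσ _ _ => ?_⟩
    obtain rfl : σ = ∅ := Finset.card_eq_zero.mp (by omega)
    refine ⟨?_, ?_⟩
    · refine Supp.single (p := Simp (ground v ∅) ∅ k (k + d) _) ⟨by simp, fun S hS => ?_,
        fun S hS T hT => ?_⟩ 1
      · rw [Finset.mem_singleton] at hS
        subst hS
        exact ⟨Finset.empty_subset _, Finset.subset_union_right, by omega, by omega⟩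
      · rw [Finset.mem_singleton] at hS hT
        exact Or.inl (by rw [hS, hT])
    · rw [if_pos rfl, if_pos rfl, bd_single, Finset.sum_singleton, zero_add, Finset.erase_singleton]
  | succ j ih =>
    obtain ⟨C, hC⟩ := ih
    have hnew : ∀ σ : Finset (Finset ℕ), ∃ w : Ch (Finset ℕ), σ.card = j + 1 → σ.card ≤ d →
        Simp (Finset.range N) ∅ k (k + d) σ.card σ →
        Supp (Simp (ground v σ) ∅ k (k + d) (σ.card + 1)) w ∧
          bd w = Finsupp.single σ 1 + ∑ x ∈ σ, C (σ.erase x) := by
      intro σ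
      by_cases h : σ.card = j + 1 ∧ σ.card ≤ d ∧ Simp (Finset.range N) ∅ k (k + d) σ.card σ
      · obtain ⟨hc, hcd, hs⟩ := h
        set U := ground v σ with hU
        have hsub : ∀ x, ∀ S ∈ σ.erase x, S ∈ σ := fun x S => Finset.mem_of_mem_erase
        have hC' : ∀ x ∈ σ,
            Supp (Simp (ground v (σ.erase x)) ∅ k (k + d) ((σ.erase x).card + 1)) (C (σ.erase x)) ∧
            bd (C (σ.erase x)) = (if σ.erase x = ∅ then 0 else
              Finsupp.single (σ.erase x) 1 + ∑ y ∈ σ.erase x, C ((σ.erase x).erase y)) +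
              (if σ.erase x = ∅ then Finsupp.single ∅ 1 else 0) := fun x hx =>
          hC _ (by rw [Finset.card_erase_of_mem hx]; omega)
            (by rw [Finset.card_erase_of_mem hx]; omega) (hs.subset (Finset.erase_subset _ _))
        have hz : Supp (Simp U ∅ k (k + d) σ.card)
            (Finsupp.single σ 1 + ∑ x ∈ σ, C (σ.erase x)) := by
          refine Supp.add (Supp.single ?_ 1) (Supp.sum fun x hx => ?_)
          · exact ⟨rfl, fun S hS => ⟨(hs.2.1 S hS).1, (subset_top hS).trans
              Finset.subset_union_left, (hs.2.1 S hS).2.2⟩, hs.2.2⟩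
          · refine (hC' x hx).1.mono fun ρ hρ => ?_
            rw [Finset.card_erase_of_mem hx, show σ.card - 1 + 1 = σ.card by omega] at hρ
            exact hρ.mono (Finset.union_subset_union (top_mono (Finset.erase_subset _ _))
              subset_rfl)
        have hzb : bd (Finsupp.single σ 1 + ∑ x ∈ σ, C (σ.erase x)) = 0 := by
          rw [map_add, map_sum, bd_single, ← Finset.sum_add_distrib]
          by_cases hj : j = 0
          · subst hj
            refine Finset.sum_eq_zero fun x hx => ?_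
            have he : σ.erase x = ∅ := Finset.card_eq_zero.mp (by
              rw [Finset.card_erase_of_mem hx]; omega)
            rw [(hC' x hx).2, if_pos he, if_pos he, zero_add, he, ZModModule.add_self]
          · have he : ∀ x ∈ σ, σ.erase x ≠ ∅ := fun x hx h => by
              have := Finset.card_erase_of_mem hx
              rw [h, Finset.card_empty] at this
              omega
            rw [Finset.sum_congr rfl fun x hx => by
              rw [(hC' x hx).2, if_neg (he x hx), if_neg (he x hx), add_zero, ← add_assoc,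
                ZModModule.add_self, zero_add]]
            rw [Finset.sum_sigma']
            refine Finset.sum_involution (fun w _ => ⟨w.2, w.1⟩) ?_ ?_ ?_ ?_
            · rintro ⟨x, y⟩ _
              rw [Finset.erase_right_comm]
              exact ZModModule.add_self _
            · rintro ⟨x, y⟩ h _ he'
              simp only [Finset.mem_sigma, Finset.mem_erase] at h
              simp only [Sigma.mk.injEq, heq_eq_eq] at he'
              exact h.2.1 he'.1
            · rintro ⟨x, y⟩ h
              simp only [Finset.mem_sigma, Finset.mem_erase] at h ⊢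
              exact ⟨h.2.2, h.2.1.symm, h.1⟩
            · rintro ⟨x, y⟩ _
              rfl
        obtain ⟨w, hw, hwbd⟩ := exists_filling U ∅ k (k + d) σ.card (Finset.empty_subset _)
          (by simp) (by omega)
          (by rw [hU, ground]; exact hv.ge.trans (Finset.card_le_card Finset.subset_union_right))
          (by omega) (Finsupp.single σ 1 + ∑ x ∈ σ, C (σ.erase x)) hz hzb
        exact ⟨w, fun _ _ _ => ⟨hw, hwbd⟩⟩
      · exact ⟨0, fun h1 h2 h3 => absurd ⟨h1, h2, h3⟩ h⟩
    choose W hW using hnew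
    refine ⟨fun σ => if σ.card ≤ j then C σ else W σ, fun σ hσ hσd hs => ?_⟩
    dsimp only
    by_cases hle : σ.card ≤ j
    · rw [if_pos hle]
      have hsum : ∀ x ∈ σ, (if (σ.erase x).card ≤ j then C (σ.erase x) else W (σ.erase x)) =
          C (σ.erase x) := fun x _ =>
        if_pos ((Finset.card_le_card (Finset.erase_subset _ _)).trans hle)
      rw [Finset.sum_congr rfl hsum]
      exact hC σ hle hσd hs
    · rw [if_neg hle]
      have hc : σ.card = j + 1 := by omega
      have hne : σ ≠ ∅ := fun h => by rw [h, Finset.card_empty] at hc; omega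
      have hsum : ∀ x ∈ σ, (if (σ.erase x).card ≤ j then C (σ.erase x) else W (σ.erase x)) =
          C (σ.erase x) := fun x hx => if_pos (by rw [Finset.card_erase_of_mem hx]; omega)
      rw [Finset.sum_congr rfl hsum, if_neg hne, if_neg hne, add_zero]
      exact hW σ hc hσd hs

/-- The evaluation of a cochain on chains. -/
noncomputable def ev (f : Finset (Finset ℕ) → ZMod 2) : Ch (Finset ℕ) →ₗ[ZMod 2] ZMod 2 :=
  Finsupp.linearCombination (ZMod 2) f

lemma ev_bd (f : Finset (Finset ℕ) → ZMod 2) {z : Ch (Finset ℕ)} {i : ℕ}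
    (hz : Supp (fun τ => τ.card = i + 1) z) : ev f (bd z) = ev (cobd i f) z := by
  conv_lhs => rw [← Finsupp.sum_single z]
  conv_rhs => rw [← Finsupp.sum_single z]
  rw [Finsupp.sum, map_sum, map_sum, map_sum]
  refine Finset.sum_congr rfl fun τ hτ => ?_
  have : (Finsupp.single τ (z τ) : Ch (Finset ℕ)) = z τ • Finsupp.single τ 1 := by simp
  rw [this, map_smul, map_smul, map_smul, bd_single, map_sum]
  simp [ev, cobd_eq_sum_erase f τ (hz τ hτ)]

/-- The expansion constant of the chain complex, inverted. -/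
def expandBound (k d : ℕ) : ℕ := 2 ^ (d + 1) * (2 ^ (d + 1) * (chainBound k d * (2 ^ (k + d) * 4 ^ (k + d))))

lemma expandBound_pos (k d : ℕ) : 0 < expandBound k d := by
  unfold expandBound chainBound; positivity

theorem chainComplex_expander {N k d : ℕ} (hN : k + d ≤ N) :
    IsCoboundaryExpander d (1 / (expandBound k d : ℝ)) (chainComplex N k d) := by
  classical
  intro i hi f
  set F := chainComplex N k d with hF
  set V0 := (Finset.range N).powersetCard (k + d) with hV0
  have hV0ne : V0.Nonempty := Finset.powersetCard_nonempty.mpr (by simpa using hN)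
  have hFne : F.Nonempty := by
    obtain ⟨T, hT⟩ := hV0ne
    obtain ⟨hTN, hTc⟩ := Finset.mem_powersetCard.mp hT
    obtain ⟨τ, hτ, -⟩ := exists_face_with_top (σ := ∅) (T := T) (j := 0)
      ⟨rfl, fun S hS => absurd hS (Finset.notMem_empty S),
        fun S hS => absurd hS (Finset.notMem_empty S)⟩ (by omega) hTc hTN (by simp [top])
    exact ⟨τ, hτ⟩
  have hFpos : (0 : ℝ) < F.card := by exact_mod_cast Finset.card_pos.mpr hFne
  have hcones : ∀ v ∈ V0, ∃ C : Finset (Finset ℕ) → Ch (Finset ℕ), ∀ σ, σ.card ≤ d →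
      Simp (Finset.range N) ∅ k (k + d) σ.card σ →
      Supp (Simp (ground v σ) ∅ k (k + d) (σ.card + 1)) (C σ) ∧
        bd (C σ) = (if σ = ∅ then 0 else Finsupp.single σ 1 + ∑ x ∈ σ, C (σ.erase x)) +
          (if σ = ∅ then Finsupp.single ∅ 1 else 0) :=
    fun v hv => exists_cones N k d v (Finset.mem_powersetCard.mp hv).1
      (Finset.mem_powersetCard.mp hv).2
  choose! C hC using hcones
  have hsimp : ∀ {j : ℕ} {σ : Finset (Finset ℕ)}, σ ∈ faces F j →
      σ.card = j ∧ Simp (Finset.range N) ∅ k (k + d) σ.card σ := by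
    intro j σ hσ
    obtain ⟨⟨τ, hτ, hστ⟩, hc⟩ := mem_faces.mp hσ
    exact ⟨hc, (mem_chainComplex.mp hτ).subset hστ⟩
  set fam : Finset ℕ → (Finset (Finset ℕ) → ZMod 2) := fun v σ =>
    f σ - cobd i (fun ρ => ev f (C v ρ)) σ with hfam
  -- a nonzero value forces a bad face inside the cone
  have hkey : ∀ v ∈ V0, ∀ σ ∈ (faces F (i + 1)).filter (fun σ => fam v σ ≠ 0),
      ∃ τ ∈ (faces F (i + 2)).filter (fun τ => cobd (i + 1) f τ ≠ 0),
        top τ ⊆ top σ ∪ v := by
    intro v hv σ hσ
    obtain ⟨hσF, hne⟩ := Finset.mem_filter.mp hσ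
    obtain ⟨hc, hs⟩ := hsimp hσF
    obtain ⟨hsupp, hbd⟩ := hC v hv σ (by omega) hs
    have hσne : σ ≠ ∅ := fun h => by rw [h, Finset.card_empty] at hc; omega
    rw [if_neg hσne, if_neg hσne, add_zero] at hbd
    rw [hc] at hsupp
    have hev : fam v σ = ev (cobd (i + 1) f) (C v σ) := by
      rw [← ev_bd f (hsupp.mono fun τ h => h.1), hbd, map_add, map_sum]
      simp only [hfam]
      rw [cobd_eq_sum_erase _ σ hc, sub_eq_add_neg, ZModModule.neg_eq_self]
      simp [ev]
    have hne' : ev (cobd (i + 1) f) (C v σ) ≠ 0 := hev ▸ hne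
    obtain ⟨τ, hτ, hτne⟩ : ∃ τ ∈ (C v σ).support, cobd (i + 1) f τ ≠ 0 := by
      by_contra hcon
      push Not at hcon
      refine hne' ?_
      rw [ev, Finsupp.linearCombination_apply]
      exact Finset.sum_eq_zero fun τ hτ => by simp [hcon τ hτ]
    have hτs := hsupp τ hτ
    obtain ⟨hvN, hvc⟩ := Finset.mem_powersetCard.mp hv
    have hgN : ground v σ ⊆ Finset.range N :=
      Finset.union_subset (top_subset fun S hS => (hs.2.1 S hS).2.1) hvN
    obtain ⟨T, hT⟩ : ∃ T, T ∈ supers N (k + d) (top τ) := by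
      refine Finset.card_pos.mp ?_
      rw [card_supers (top_subset fun S hS => (hτs.2.1 S hS).2.1.trans hgN) hτs.card_top_le]
      refine Nat.choose_pos ?_
      have := hτs.card_top_le
      omega
    obtain ⟨hT1, hT2⟩ := Finset.mem_filter.mp hT
    obtain ⟨hTN, hTc⟩ := Finset.mem_powersetCard.mp hT1
    obtain ⟨ρ, hρ, hτρ, -⟩ := exists_face_with_top (hτs.mono hgN) (by omega) hTc hTN hT2
    exact ⟨τ, Finset.mem_filter.mpr ⟨mem_faces.mpr ⟨⟨ρ, hρ, hτρ⟩, hτs.1⟩, hτne⟩,
      top_subset fun S hS => (hτs.2.1 S hS).2.1⟩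
  -- counting
  have hnn : ∀ σ, 0 ≤ faceWeight d F σ := fun σ => by unfold faceWeight; positivity
  have hweight : ∀ τ ∈ faces F (i + 2),
      ∑ v ∈ V0, ∑ σ ∈ (faces F (i + 1)).filter (fun σ => top τ ⊆ top σ ∪ v),
        faceWeight d F σ ≤ (expandBound k d : ℝ) * V0.card * faceWeight d F τ := by
    intro τ hτ
    obtain ⟨hτc, hτs⟩ := hsimp hτ
    have hR : top τ ⊆ Finset.range N := top_subset fun S hS => (hτs.2.1 S hS).2.1
    have hcount : ∀ v ∈ V0,
        ∑ σ ∈ (faces F (i + 1)).filter (fun σ => top τ ⊆ top σ ∪ v),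
          (F.filter fun ρ => σ ⊆ ρ).card ≤
        2 ^ (d + 1) * (chainBound k d * (V0.filter fun T => top τ ⊆ T ∪ v).card) := by
      intro v _
      simp only [Finset.card_filter]
      rw [Finset.sum_comm]
      have hpoint : ∀ ρ ∈ F,
          ∑ σ ∈ (faces F (i + 1)).filter (fun σ => top τ ⊆ top σ ∪ v), (if σ ⊆ ρ then 1 else 0) ≤
            (if top τ ⊆ top ρ ∪ v then 2 ^ (d + 1) else 0) := by
        intro ρ hρ
        rw [← Finset.card_filter]
        by_cases h : top τ ⊆ top ρ ∪ v
        · rw [if_pos h, ← (mem_chainComplex.mp hρ).1, ← Finset.card_powerset]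
          exact Finset.card_le_card fun σ hσ =>
            Finset.mem_powerset.mpr (Finset.mem_filter.mp hσ).2
        · rw [if_neg h, Nat.le_zero, Finset.card_eq_zero, Finset.filter_eq_empty_iff]
          intro σ hσ hσρ
          exact h ((Finset.mem_filter.mp hσ).2.trans
            (Finset.union_subset_union (top_mono hσρ) subset_rfl))
      refine (Finset.sum_le_sum hpoint).trans ?_
      rw [← Finset.sum_filter, Finset.sum_const, smul_eq_mul, mul_comm]
      refine Nat.mul_le_mul_left _ ?_
      rw [← Finset.card_filter]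
      exact faces_le_supers (fun T => top τ ⊆ T ∪ v)
    have htot : ∑ v ∈ V0, ∑ σ ∈ (faces F (i + 1)).filter (fun σ => top τ ⊆ top σ ∪ v),
        (F.filter fun ρ => σ ⊆ ρ).card ≤
        2 ^ (d + 1) * (chainBound k d * (2 ^ (k + d) * (4 ^ (k + d) *
          (V0.card * (F.filter fun ρ => τ ⊆ ρ).card)))) := by
      refine (Finset.sum_le_sum hcount).trans ?_
      rw [← Finset.mul_sum, ← Finset.mul_sum]
      refine Nat.mul_le_mul_left _ (Nat.mul_le_mul_left _ ?_)
      refine (pairs_le hR hτs.card_top_le hN).trans ?_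
      refine Nat.mul_le_mul_left _ (Nat.mul_le_mul_left _ ?_)
      rw [hV0, Finset.card_powersetCard, Finset.card_range]
      exact Nat.mul_le_mul_left _ (supers_le_faces hτs (by omega))
    have hσw : ∀ σ ∈ faces F (i + 1),
        faceWeight d F σ ≤ ((F.filter fun ρ => σ ⊆ ρ).card : ℝ) / F.card := by
      intro σ hσ
      unfold faceWeight
      gcongr
      refine le_mul_of_one_le_left hFpos.le ?_
      exact_mod_cast Nat.choose_pos (by rw [(hsimp hσ).1]; omega)
    have hτw : ((F.filter fun ρ => τ ⊆ ρ).card : ℝ) / F.card ≤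
        2 ^ (d + 1) * faceWeight d F τ := by
      unfold faceWeight
      have h1 : ((((d + 1).choose τ.card : ℕ) : ℝ)) ≤ 2 ^ (d + 1) := by
        exact_mod_cast Nat.choose_le_two_pow _ _
      have h2 : (0 : ℝ) < (((d + 1).choose τ.card : ℕ) : ℝ) := by
        exact_mod_cast Nat.choose_pos (by rw [hτc]; omega)
      rw [← mul_div_assoc, div_le_div_iff₀ hFpos (by positivity)]
      have h3 : (0 : ℝ) ≤ ((F.filter fun ρ => τ ⊆ ρ).card : ℝ) * F.card := by positivity
      nlinarith
    calc ∑ v ∈ V0, ∑ σ ∈ (faces F (i + 1)).filter (fun σ => top τ ⊆ top σ ∪ v),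
          faceWeight d F σ
        ≤ ∑ v ∈ V0, ∑ σ ∈ (faces F (i + 1)).filter (fun σ => top τ ⊆ top σ ∪ v),
          ((F.filter fun ρ => σ ⊆ ρ).card : ℝ) / F.card :=
          Finset.sum_le_sum fun v _ => Finset.sum_le_sum fun σ hσ =>
            hσw σ (Finset.mem_filter.mp hσ).1
      _ = ((∑ v ∈ V0, ∑ σ ∈ (faces F (i + 1)).filter (fun σ => top τ ⊆ top σ ∪ v),
          (F.filter fun ρ => σ ⊆ ρ).card : ℕ) : ℝ) / F.card := by
          push_cast
          simp only [Finset.sum_div]
      _ ≤ ((2 ^ (d + 1) * (chainBound k d * (2 ^ (k + d) * (4 ^ (k + d) *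
          (V0.card * (F.filter fun ρ => τ ⊆ ρ).card)))) : ℕ) : ℝ) / F.card := by
          gcongr
      _ = (2 ^ (d + 1) * (chainBound k d * (2 ^ (k + d) * 4 ^ (k + d))) : ℝ) * V0.card *
          (((F.filter fun ρ => τ ⊆ ρ).card : ℝ) / F.card) := by
          push_cast
          ring
      _ ≤ (2 ^ (d + 1) * (chainBound k d * (2 ^ (k + d) * 4 ^ (k + d))) : ℝ) * V0.card *
          (2 ^ (d + 1) * faceWeight d F τ) := by gcongr
      _ = (expandBound k d : ℝ) * V0.card * faceWeight d F τ := by
          unfold expandBound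
          push_cast
          ring
  have hsum : ∑ v ∈ V0, coNorm d F (i + 1) (fam v) ≤
      ∑ _v ∈ V0, (expandBound k d : ℝ) * coNorm d F (i + 2) (cobd (i + 1) f) := by
    set bad := (faces F (i + 2)).filter (fun τ => cobd (i + 1) f τ ≠ 0) with hbad
    calc ∑ v ∈ V0, coNorm d F (i + 1) (fam v)
        ≤ ∑ v ∈ V0, ∑ τ ∈ bad, ∑ σ ∈ (faces F (i + 1)).filter
            (fun σ => top τ ⊆ top σ ∪ v), faceWeight d F σ := by
          refine Finset.sum_le_sum fun v hv => ?_
          simp only [Finset.sum_filter]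
          rw [Finset.sum_comm, coNorm]
          refine le_trans ?_ (Finset.sum_le_sum_of_subset_of_nonneg (Finset.filter_subset
            (fun σ => fam v σ ≠ 0) _) fun σ _ _ => Finset.sum_nonneg fun τ _ => ?_)
          · refine Finset.sum_le_sum fun σ hσ => ?_
            obtain ⟨τ, hτ, hsub⟩ := hkey v hv σ hσ
            refine le_trans (le_of_eq (if_pos hsub).symm)
              (Finset.single_le_sum (f := fun τ => if top τ ⊆ top σ ∪ v then faceWeight d F σ
                else 0) (fun τ _ => ?_) hτ)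
            split
            · exact hnn σ
            · exact le_rfl
          · split
            · exact hnn σ
            · exact le_rfl
      _ = ∑ τ ∈ bad, ∑ v ∈ V0, ∑ σ ∈ (faces F (i + 1)).filter
            (fun σ => top τ ⊆ top σ ∪ v), faceWeight d F σ := Finset.sum_comm
      _ ≤ ∑ τ ∈ bad, (expandBound k d : ℝ) * V0.card * faceWeight d F τ :=
          Finset.sum_le_sum fun τ hτ => hweight τ (Finset.mem_filter.mp hτ).1
      _ = _ := by
          rw [← Finset.mul_sum, Finset.sum_const, nsmul_eq_mul, coNorm]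
          ring
  obtain ⟨v, -, hv⟩ := Finset.exists_le_of_sum_le hV0ne hsum
  refine ⟨fun ρ => ev f (C v ρ), ?_⟩
  rw [div_mul_eq_mul_div, one_mul, div_le_iff₀ (by exact_mod_cast expandBound_pos k d),
    mul_comm (coNorm d F (i + 2) (cobd (i + 1) f))]
  exact hv

end Vale.Agent.HDX
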