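import Vale.Agent.HDX.Chain

open Finset

namespace Vale.Agent.HDX

/-- A chain of `j` sets between `B` and `U`, with sizes in `[a, b]`. -/
def Simp (U B : Finset ℕ) (a b j : ℕ) (σ : Finset (Finset ℕ)) : Prop :=
  σ.card = j ∧ (∀ S ∈ σ, B ⊆ S ∧ S ⊆ U ∧ a ≤ S.card ∧ S.card ≤ b) ∧
    ∀ S ∈ σ, ∀ T ∈ σ, S ⊆ T ∨ T ⊆ S

lemma Simp.cone {U B : Finset ℕ} {a b j : ℕ} {σ : Finset (Finset ℕ)} {X : Finset ℕ}
    (h : Simp U B a b j σ) (hX : B ⊆ X ∧ X ⊆ U ∧ a ≤ X.card ∧ X.card ≤ b)
    (hc : ∀ S ∈ σ, S ⊆ X ∨ X ⊆ S) :
    Supp (Simp U B a b (j + 1)) (Vale.Agent.HDX.cone X (Finsupp.single σ 1)) := by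
  rw [cone_single]
  split
  · exact Supp.zero
  · rename_i hX'
    refine Supp.single ⟨by rw [Finset.card_insert_of_notMem hX', h.1], ?_, ?_⟩ 1
    · intro S hS
      rcases Finset.mem_insert.mp hS with rfl | hS
      · exact hX
      · exact h.2.1 S hS
    · intro S hS T hT
      rcases Finset.mem_insert.mp hS with hS | hS <;>
        rcases Finset.mem_insert.mp hT with hT | hT
      · exact Or.inl (by rw [hS, hT])
      · rw [hS]; exact (hc T hT).symm
      · rw [hT]; exact hc S hS
      · exact h.2.2 S hS T hT

lemma cone_supp {U B : Finset ℕ} {a b j : ℕ} {z : Ch (Finset ℕ)} {X : Finset ℕ}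
    (hz : Supp (Simp U B a b j) z) (hX : B ⊆ X ∧ X ⊆ U ∧ a ≤ X.card ∧ X.card ≤ b)
    (hc : ∀ σ ∈ z.support, ∀ S ∈ σ, S ⊆ X ∨ X ⊆ S) :
    Supp (Simp U B a b (j + 1)) (cone X z) := by
  rw [← Finsupp.sum_single z, Finsupp.sum, map_sum]
  refine Supp.sum fun σ hσ => ?_
  have : (Finsupp.single σ (z σ) : Ch (Finset ℕ)) = z σ • Finsupp.single σ 1 := by simp
  rw [this, map_smul]
  exact ((hz σ hσ).cone hX (hc σ hσ)).smul _

/-- The rank-selected Boolean lattice has no reduced homology below the top dimension. -/
theorem exists_filling (U B : Finset ℕ) (a b j : ℕ) (hBU : B ⊆ U) (hBa : B.card ≤ a)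
    (hab : a ≤ b) (hbU : b ≤ U.card) (hj : j ≤ b - a) (z : Ch (Finset ℕ))
    (hz : Supp (Simp U B a b j) z) (hbd : bd z = 0) :
    ∃ w, Supp (Simp U B a b (j + 1)) w ∧ bd w = z := by
  generalize hn : U.card - B.card = n
  induction n using Nat.strong_induction_on generalizing U B a b j z with
  | _ n ih =>
  have hcone : ∀ X : Finset ℕ, B ⊆ X ∧ X ⊆ U ∧ a ≤ X.card ∧ X.card ≤ b →
      (∀ σ ∈ z.support, ∀ S ∈ σ, S ⊆ X ∨ X ⊆ S) →
      ∃ w, Supp (Simp U B a b (j + 1)) w ∧ bd w = z := by
    intro X hX hc
    refine ⟨cone X z, cone_supp hz hX hc, ?_⟩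
    have := bd_cone X z
    rwa [hbd, map_zero, add_zero] at this
  rcases eq_or_lt_of_le hBa with hBa' | hBa'
  · exact hcone B ⟨subset_rfl, hBU, by omega, by omega⟩
      fun σ hσ S hS => Or.inr ((hz σ hσ).2.1 S hS).1
  rcases eq_or_lt_of_le hbU with hbU' | hbU'
  · exact hcone U ⟨hBU, subset_rfl, by omega, by omega⟩
      fun σ hσ S hS => Or.inl ((hz σ hσ).2.1 S hS).2.1
  obtain ⟨u, huU, huB⟩ : ∃ u ∈ U, u ∉ B := Finset.exists_mem_notMem_of_card_lt_card (by omega)
  -- Remove the sets containing `u`, by increasing size.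
  have hstep : ∀ s, a ≤ s → ∃ z', Supp (Simp U B a b j) z' ∧ bd z' = 0 ∧
      (∀ σ ∈ z'.support, ∀ S ∈ σ, u ∈ S → s ≤ S.card) ∧
      ∃ w, Supp (Simp U B a b (j + 1)) w ∧ z = z' + bd w := by
    intro s hs
    induction s, hs using Nat.le_induction with
    | base =>
      exact ⟨z, hz, hbd, fun σ hσ S hS _ => ((hz σ hσ).2.1 S hS).2.2.1, 0, Supp.zero, by simp⟩
    | succ s hs ihs =>
      obtain ⟨z', hz', hbd', hmin, w, hw, hzw⟩ := ihs
      set bad := (z'.support.biUnion id).filter fun S => S.card = s ∧ u ∈ S with hbad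
      have hfill : ∀ S ∈ bad, ∃ v, bd v = lk S z' ∧
          Supp (fun σ => Simp U B a b j σ ∧ ∀ T ∈ σ, u ∈ T → s + 1 ≤ T.card) v ∧
          Supp (Simp U B a b (j + 1)) (cone S v) := by
        intro S hS
        obtain ⟨hSm, hScard, huS⟩ := Finset.mem_filter.mp hS
        obtain ⟨σ₀, hσ₀, hSσ₀⟩ := Finset.mem_biUnion.mp hSm
        have hSprop := (hz' σ₀ hσ₀).2.1 S hSσ₀
        have hj1 : 1 ≤ j := by
          rw [← (hz' σ₀ hσ₀).1]; exact Finset.card_pos.mpr ⟨S, hSσ₀⟩
        -- the simplices of the link
        have hlk : Supp (fun σ => Simp U B a b (j - 1) σ ∧ S ∉ σ ∧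
            (∀ T ∈ σ, T ⊂ S ∨ S ⊂ T) ∧ ∀ T ∈ σ, u ∈ T → s ≤ T.card) (lk S z') := by
          refine Supp.linearCombination (p := fun σ => σ ∈ z'.support) (fun σ h => h) fun σ hσ => ?_
          split
          · rename_i hSσ
            refine Supp.single ⟨⟨?_, ?_, ?_⟩, Finset.notMem_erase S σ, ?_, ?_⟩ 1
            · rw [Finset.card_erase_of_mem hSσ, (hz' σ hσ).1]
            · exact fun T hT => (hz' σ hσ).2.1 T (Finset.mem_of_mem_erase hT)
            · exact fun T hT R hR => (hz' σ hσ).2.2 T (Finset.mem_of_mem_erase hT) R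
                (Finset.mem_of_mem_erase hR)
            · intro T hT
              have hne := Finset.ne_of_mem_erase hT
              rcases (hz' σ hσ).2.2 T (Finset.mem_of_mem_erase hT) S hSσ with h | h
              · exact Or.inl (Finset.ssubset_iff_subset_ne.mpr ⟨h, hne⟩)
              · exact Or.inr (Finset.ssubset_iff_subset_ne.mpr ⟨h, hne.symm⟩)
            · exact fun T hT => hmin σ hσ T (Finset.mem_of_mem_erase hT)
          · exact Supp.zero
        have hbdlk : bd (lk S z') = 0 := by rw [bd_lk, hbd', map_zero]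
        have hgood : ∀ T, (T ⊂ S ∨ S ⊂ T) → (u ∈ T → s ≤ T.card) → u ∈ T → s + 1 ≤ T.card := by
          intro T hT hTs hu
          rcases hT with h | h <;> have := Finset.card_lt_card h <;> have := hTs hu <;> omega
        suffices h : ∃ v, bd v = lk S z' ∧ Supp (fun σ => Simp U B a b j σ ∧ S ∉ σ ∧
            (∀ T ∈ σ, (T ⊆ S ∨ S ⊆ T)) ∧ ∀ T ∈ σ, u ∈ T → s + 1 ≤ T.card) v by
          obtain ⟨v, hv, hvs⟩ := h
          refine ⟨v, hv, hvs.mono fun σ h => ⟨h.1, h.2.2.2⟩, ?_⟩
          exact cone_supp (hvs.mono fun σ h => h.1) hSprop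
            fun σ hσ T hT => (hvs σ hσ).2.2.1 T hT
        rcases eq_or_lt_of_le hs with hsa | hsa
        · -- the bottom level: fill inside the upper interval
          have hup : Supp (Simp U S (a + 1) b (j - 1)) (lk S z') := by
            refine hlk.mono fun σ hσ => ⟨hσ.1.1, fun T hT => ?_, hσ.1.2.2⟩
            obtain ⟨_, hTU, hTa, hTb⟩ := hσ.1.2.1 T hT
            rcases hσ.2.2.1 T hT with h | h
            · have := Finset.card_lt_card h; omega
            · have := Finset.card_lt_card h
              exact ⟨h.subset, hTU, by omega, hTb⟩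
          obtain ⟨v, hv, hvbd⟩ := ih (U.card - S.card) (by omega) U S (a + 1) b (j - 1)
            hSprop.2.1 (by omega) (by omega) hbU (by omega) (lk S z') hup hbdlk rfl
          refine ⟨v, hvbd, hv.mono fun σ hσ => ⟨⟨?_, ?_, hσ.2.2⟩, ?_, ?_, ?_⟩⟩
          · rw [hσ.1]; omega
          · intro T hT
            obtain ⟨h1, h2, h3, h4⟩ := hσ.2.1 T hT
            exact ⟨hSprop.1.trans h1, h2, by omega, h4⟩
          · intro hSσ
            have := (hσ.2.1 S hSσ).2.2.1
            omega
          · exact fun T hT => Or.inr (hσ.2.1 T hT).1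
          · intro T hT _
            have := (hσ.2.1 T hT).2.2.1
            omega
        · -- higher levels: the link is a cone with apex `S.erase u`
          set X := S.erase u with hX
          have hXcard : X.card + 1 = s := by rw [hX, Finset.card_erase_add_one huS, hScard]
          have hXS : X ⊆ S := Finset.erase_subset _ _
          have hBX : B ⊆ X := Finset.subset_erase.mpr ⟨hSprop.1, huB⟩
          have hXcomp : ∀ σ ∈ (lk S z').support, ∀ T ∈ σ, T ⊆ X ∨ X ⊆ T := by
            intro σ hσ T hT
            rcases (hlk σ hσ).2.2.1 T hT with h | h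
            · refine Or.inl (Finset.subset_erase.mpr ⟨h.subset, fun hu => ?_⟩)
              have := Finset.card_lt_card h
              have := (hlk σ hσ).2.2.2 T hT hu
              omega
            · exact Or.inr (hXS.trans h.subset)
          refine ⟨cone X (lk S z'), ?_, ?_⟩
          · have := bd_cone X (lk S z')
            rwa [hbdlk, map_zero, add_zero] at this
          · rw [cone]
            refine Supp.linearCombination (p := fun σ => σ ∈ (lk S z').support) (fun σ h => h)
              fun σ hσ => ?_
            split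
            · exact Supp.zero
            · rename_i hXσ
              obtain ⟨hσ1, hσ2, hσ3, hσ4⟩ := hlk σ hσ
              have h1 := Simp.cone hσ1
                (X := X) ⟨hBX, hXS.trans hSprop.2.1, by omega, by omega⟩
                (hXcomp σ hσ)
              rw [cone_single, if_neg hXσ] at h1
              have h2 := h1 (insert X σ) (by simp)
              rw [show j - 1 + 1 = j by omega] at h2
              refine Supp.single ⟨h2, ?_, ?_, ?_⟩ 1
              · intro h
                rcases Finset.mem_insert.mp h with h | h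
                · rw [← h] at hXcard; omega
                · exact hσ2 h
              · intro T hT
                rcases Finset.mem_insert.mp hT with rfl | hT
                · exact Or.inl hXS
                · exact (hσ3 T hT).imp (fun h => h.subset) (fun h => h.subset)
              · intro T hT hu
                rcases Finset.mem_insert.mp hT with rfl | hT
                · exact absurd hu (Finset.notMem_erase u S)
                · exact hgood T (hσ3 T hT) (hσ4 T hT) hu
      choose! v hv hvs hvc using hfill
      refine ⟨z' + ∑ S ∈ bad, bd (cone S (v S)), ?_, ?_, ?_,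
        w + ∑ S ∈ bad, cone S (v S), hw.add (Supp.sum hvc), ?_⟩
      rotate_left
      · rw [map_add, hbd', map_sum, zero_add]
        exact Finset.sum_eq_zero fun S _ => bd_bd _
      rotate_left
      · rw [hzw, map_add, map_sum]
        rw [show ∀ a b c : Ch (Finset ℕ), a + b + (c + b) = a + c + (b + b) from fun a b c => by
          abel, ZModModule.add_self, add_zero]
      all_goals
        have hkey : z' + ∑ S ∈ bad, bd (cone S (v S)) =
            (z' + ∑ S ∈ bad, cone S (lk S z')) + ∑ S ∈ bad, v S := by
          rw [add_assoc, ← Finset.sum_add_distrib]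
          congr 1
          refine Finset.sum_congr rfl fun S hS => ?_
          have h := bd_cone S (v S)
          rw [hv S hS] at h
          calc bd (cone S (v S))
              = bd (cone S (v S)) + (cone S (lk S z') + cone S (lk S z')) := by
                rw [ZModModule.add_self, add_zero]
            _ = v S + cone S (lk S z') := by rw [← add_assoc, h]
            _ = cone S (lk S z') + v S := add_comm _ _
        have hrest : Supp (fun σ => Simp U B a b j σ ∧ ∀ T ∈ σ, u ∈ T → s + 1 ≤ T.card)
            (z' + ∑ S ∈ bad, cone S (lk S z')) := by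
          have hmap : z' + ∑ S ∈ bad, cone S (lk S z') =
              Finsupp.linearCombination (ZMod 2)
                (fun σ => Finsupp.single σ 1 + ∑ S ∈ bad,
                  if S ∈ σ then Finsupp.single σ 1 else 0) z' := by
            suffices h : (LinearMap.id + ∑ S ∈ bad, (cone S).comp (lk S) :
                Ch (Finset ℕ) →ₗ[ZMod 2] Ch (Finset ℕ)) =
                Finsupp.linearCombination (ZMod 2)
                  (fun σ => Finsupp.single σ 1 + ∑ S ∈ bad,
                    if S ∈ σ then Finsupp.single σ 1 else 0) by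
              have := LinearMap.congr_fun h z'
              simpa [LinearMap.sum_apply] using this
            refine ch_ext fun σ => ?_
            simp only [LinearMap.add_apply, LinearMap.id_apply, LinearMap.sum_apply,
              LinearMap.comp_apply, Finsupp.linearCombination_single, one_smul, lk_single]
            congr 1
            refine Finset.sum_congr rfl fun S _ => ?_
            split
            · rename_i h
              rw [cone_single, if_neg (Finset.notMem_erase S σ), Finset.insert_erase h]
            · simp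
          rw [hmap]
          refine Supp.linearCombination (p := fun σ => σ ∈ z'.support) (fun σ h => h)
            fun σ hσ => ?_
          by_cases hb : ∃ S ∈ bad, S ∈ σ
          · obtain ⟨S, hS, hSσ⟩ := hb
            rw [Finset.sum_eq_single_of_mem S hS, if_pos hSσ, ZModModule.add_self]
            · exact Supp.zero
            · intro T hT hne
              rw [if_neg]
              intro hTσ
              have h1 := (Finset.mem_filter.mp hS).2.1
              have h2 := (Finset.mem_filter.mp hT).2.1
              rcases (hz' σ hσ).2.2 T hTσ S hSσ with h | h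
              · exact hne (Finset.eq_of_subset_of_card_le h (by omega))
              · exact hne (Finset.eq_of_subset_of_card_le h (by omega)).symm
          · rw [Finset.sum_eq_zero (fun S hS => if_neg fun h => hb ⟨S, hS, h⟩), add_zero]
            refine Supp.single ⟨hz' σ hσ, fun T hT hu => ?_⟩ 1
            have h1 := hmin σ hσ T hT hu
            have h2 : T.card ≠ s := fun h => hb ⟨T, Finset.mem_filter.mpr
              ⟨Finset.mem_biUnion.mpr ⟨σ, hσ, hT⟩, h, hu⟩, hT⟩
            omega
        have hall := hrest.add (Supp.sum hvs)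
        rw [← hkey] at hall
        first
          | exact hall.mono fun σ h => h.1
          | exact fun σ hσ => (hall σ hσ).2
  obtain ⟨z', hz', hbd', hmin, w, hw, hzw⟩ := hstep (b + 1) (by omega)
  have hz'' : Supp (Simp (U.erase u) B a b j) z' := by
    intro σ hσ
    refine ⟨(hz' σ hσ).1, fun T hT => ?_, (hz' σ hσ).2.2⟩
    obtain ⟨h1, h2, h3, h4⟩ := (hz' σ hσ).2.1 T hT
    exact ⟨h1, Finset.subset_erase.mpr ⟨h2, fun hu => by have := hmin σ hσ T hT hu; omega⟩,
      h3, h4⟩
  have hUc : (U.erase u).card + 1 = U.card := Finset.card_erase_add_one huU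
  obtain ⟨w', hw', hw'bd⟩ := ih ((U.erase u).card - B.card) (by omega) (U.erase u) B a b j
    (Finset.subset_erase.mpr ⟨hBU, huB⟩) hBa hab (by omega) hj z' hz'' hbd' rfl
  refine ⟨w' + w, Supp.add (hw'.mono fun σ hσ => ⟨hσ.1, fun T hT => ?_, hσ.2.2⟩) hw, ?_⟩
  · obtain ⟨h1, h2, h3, h4⟩ := hσ.2.1 T hT
    exact ⟨h1, h2.trans (Finset.erase_subset _ _), h3, h4⟩
  · rw [map_add, hw'bd, hzw]

end Vale.Agent.HDX
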